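import Vale.Agent.P216.H977C.MkDefs
import Vale.Agent.P216.H934D.Bridge

/-!
# P216-D, block MID: the base complex, first half of [BASE-EX]
-/

set_option linter.all false

open Set

namespace Vale.Agent.P216.H140D

open Vale.Agent.P216.Sl Vale.Agent.P216.PS Vale.Agent.P216.H934D
open Vale.Agent.P216.H977C.K3 (rc BaseEx)
open Vale.Agent.P216.H133C (pw)

variable {k M : Type} [Field k] [MetricSpace M] {d h q s : ℕ}

theorem rc_base {κ : k} {ξ c : List M → k} {ys : List M} (hl : ys.length = s + d + 1)
    (hd : 2 ≤ d) : rc (d - 1 + 1) id c (fun l => κ * ξ l) ys =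
      c (ys.take (s + 1)) * (κ * ξ (ys.drop s)) := by
  unfold rc
  rw [show ys.length - (d - 1 + 1) = s + 1 by omega, Nat.add_sub_cancel, List.map_id]

/-- `c` is exact. -/
theorem c_exact (hd : 2 ≤ d) (hs : 2 ≤ s) (hsd : s + d < d * (h + 1)) (B : BaseK k M d h)
    {κ : k} (hκ : κ ≠ 0) {a c : List M → k} {r : ℝ} (hr : 0 < r)
    (h1 : ∀ ys, ys.length = s + d + 1 → SmL (univ : Set M) r ys →
      dl a ys + (-1 : k) ^ (s + 2) * (c (ys.take (s + 1)) * (κ * B.ξ (ys.drop s))) = 0)
    (h2 : ∀ ys, ys.length = s + 2 → SmL (univ : Set M) r ys → dl c ys = 0) :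
    ExL (univ : Set M) s c := by
  have hcl : CocL (univ : Set M) s c := ⟨r, hr, fun l hl hs' => h2 l hl hs'⟩
  by_cases hs' : ∃ i, i ≤ h ∧ s = d * i
  · obtain ⟨i, hi, rfl⟩ := hs'
    obtain ⟨lam, hlam⟩ := B.line i hi c hcl
    have hi1 : i + 1 ≤ h := by
      have h3 : d * i + d = d * (i + 1) := by ring
      rw [h3] at hsd
      have := Nat.lt_of_mul_lt_mul_left hsd
      omega
    have hlam0 : lam = 0 := by
      by_contra hne
      refine B.ne (i + 1) hi1 ?_
      obtain ⟨g, -, ε, hε, hg⟩ := hlam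
      have hcξ := B.cξ
      refine ⟨fun l => (-((-1) ^ (d * i + 2) * κ * lam)⁻¹) * a l +
        (-lam⁻¹) * N929.cup (d * i - 1) g B.ξ l, fun h0 => ?_, min r (min ε B.ε),
        lt_min hr (lt_min hε B.hε), fun l hl hsm => ?_⟩
      · exfalso
        have : 1 ≤ d * (i + 1) := Nat.mul_pos (by omega) (by omega)
        omega
      · have e1 : d * (i + 1) = d * i + d := by ring
        have hl' : l.length = d * i + d + 1 := by omega
        have s1 : SmL (univ : Set M) r l := hsm.mono subset_rfl (min_le_left _ _)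
        have s2 : SmL (univ : Set M) ε l := hsm.mono subset_rfl
          ((min_le_right _ _).trans (min_le_left _ _))
        have s3 : SmL (univ : Set M) B.ε l := hsm.mono subset_rfl
          ((min_le_right _ _).trans (min_le_right _ _))
        have h3 := h1 l hl' s1
        have h4 := hg (l.take (d * i + 1)) (by rw [List.length_take]; omega)
          ⟨fun _ _ => mem_univ _, fun x hx y hy => s2.2 x (List.mem_of_mem_take hx) y
            (List.mem_of_mem_take hy)⟩
        have h5 := pw_succ_right B.ξ d i l (by omega)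
        have h6 : dl (N929.cup (d * i - 1) g B.ξ) l =
            dl g (l.take (d * i + 1)) * B.ξ (l.drop (d * i)) := by
          rw [N929.dl_cup _ _ _ _ (by omega), show d * i - 1 + 2 = d * i + 1 by omega,
            show d * i - 1 + 1 = d * i by omega]
          have h7 : dl B.ξ (l.drop (d * i - 1)) = 0 := hcξ _ (by
            rw [List.length_drop]; omega) ⟨fun _ _ => mem_univ _, fun x hx y hy =>
              s3.2 x (List.mem_of_mem_drop hx) y (List.mem_of_mem_drop hy)⟩
          rw [h7]
          ring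
        rw [N929.dl_add_fun, N929.dl_smul_fun, N929.dl_smul_fun, h6, h5]
        have h8 : c (l.take (d * i + 1)) = lam * pw B.ξ d i (l.take (d * i + 1)) +
            dl g (l.take (d * i + 1)) := by linear_combination h4
        rw [h8] at h3
        have hσ : ((-1 : k) ^ (d * i + 2)) ≠ 0 := pow_ne_zero _ (neg_ne_zero.2 one_ne_zero)
        have h9 : dl a l = -((-1 : k) ^ (d * i + 2) * ((lam * pw B.ξ d i (l.take (d * i + 1)) +
            dl g (l.take (d * i + 1))) * (κ * B.ξ (l.drop (d * i))))) := by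
          linear_combination h3
        rw [h9]
        field_simp
        ring
    refine exL_congr hlam fun l _ => ?_
    rw [hlam0]
    ring
  · exact B.zero s (fun j hj hs'' => hs' ⟨j, hj, hs''⟩) c hcl

/-- A normalised primitive which vanishes on the empty list. -/
theorem nrm_prim0 {m : ℕ} (hm : 1 ≤ m) {c : List M → k} (nc : Nrm c)
    (hc : CocL (univ : Set M) m c) (he : ExL (univ : Set M) m c) :
    ∃ g : List M → k, g [] = 0 ∧ Nrm g ∧ ∃ r > 0, ∀ ys, ys.length = m + 1 →
      SmL (univ : Set M) r ys → c ys = dl g ys := by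
  obtain ⟨g, ng, -, ε, hε, hg⟩ := N929.exists_nrm_prim nc hc he
  refine ⟨fun l => if l = [] then 0 else g l, if_pos rfl, fun l hl => ?_, ε, hε,
    fun ys h1 h2 => ?_⟩
  · change (if l = [] then (0 : k) else g l) = 0
    rw [ng l hl, ite_self]
  · rw [hg ys h1 h2]
    refine N929.dl_congr fun l' h3 _ => ?_
    rw [if_neg]
    rintro rfl
    simp at h3
    omega

/-- **[BASE-EX]**: the base complex is exact in degree `q + 1`. -/
theorem baseEx (hd : 2 ≤ d) (B : BaseK k M d h) (hq : d - 1 < q) (hq' : q + 2 < d * (h + 1))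
    {κ : k} (hκ : κ ≠ 0) : BaseEx (fun l => κ * B.ξ l) (d - 1) q := by
  obtain ⟨s, hs⟩ : ∃ s, q + 2 = s + d := ⟨q + 2 - d, by omega⟩
  have hs2 : 2 ≤ s := by omega
  have hcξ := B.cξ
  intro a c a0 c0 na nc ⟨r, hr, h1, h2⟩
  have h1' : ∀ ys, ys.length = s + d + 1 → SmL (univ : Set M) r ys →
      dl a ys + (-1 : k) ^ (s + 2) * (c (ys.take (s + 1)) * (κ * B.ξ (ys.drop s))) = 0 := by
    intro ys hl hsm
    have := h1 ys (by omega) hsm
    rwa [rc_base hl hd, show ys.length - (d - 1) = s + 2 by omega] at this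
  have h2' : ∀ ys, ys.length = s + 2 → SmL (univ : Set M) r ys → dl c ys = 0 :=
    fun ys hl hsm => h2 ys (by omega) hsm
  have hcl : CocL (univ : Set M) s c := ⟨r, hr, h2'⟩
  obtain ⟨g, g0, ng, r₁, hr₁, hg⟩ := nrm_prim0 (by omega) nc hcl
    (c_exact hd hs2 (by omega) B hκ hr h1' h2')
  -- `a₂ = a + (-1) ^ (s + 1) * c' ∪ κ ξ`, `c' = -g`
  set σ : k := (-1) ^ (s + 1) with hσ
  have hσσ : σ * σ = 1 := by rw [hσ, ← mul_pow]; simp
  -- the correction `μ ξ ^ (j - 1)`
  have key : ∃ p : List M → k, p [] = 0 ∧ Nrm p ∧ CocL (univ : Set M) (s - 1) p ∧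
      ExL (univ : Set M) (s + d - 1) fun ys => a ys + σ * ((p (ys.take s) - g (ys.take s)) *
        (κ * B.ξ (ys.drop (s - 1)))) := by
    set a₂ : List M → k := fun ys => a ys - σ * (g (ys.take s) * (κ * B.ξ (ys.drop (s - 1))))
      with ha₂
    have ha₂' : a₂ = fun ys => a ys + (-(σ * κ)) * N929.cup (s - 1) g B.ξ ys := by
      funext ys
      rw [ha₂, N929.cup, show s - 1 + 1 = s by omega]
      ring
    have hcl₂ : CocL (univ : Set M) (s + d - 1) a₂ := by
      refine ⟨min r (min r₁ B.ε), lt_min hr (lt_min hr₁ B.hε), fun ys hl hsm => ?_⟩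
      have s1 : SmL (univ : Set M) r ys := hsm.mono subset_rfl (min_le_left _ _)
      have s2 : SmL (univ : Set M) r₁ ys := hsm.mono subset_rfl
        ((min_le_right _ _).trans (min_le_left _ _))
      have s3 : SmL (univ : Set M) B.ε ys := hsm.mono subset_rfl
        ((min_le_right _ _).trans (min_le_right _ _))
      rw [ha₂', N929.dl_add_fun, N929.dl_smul_fun, N929.dl_cup _ _ _ _ (by omega),
        show s - 1 + 2 = s + 1 by omega, show s - 1 + 1 = s by omega]
      have h7 : dl B.ξ (ys.drop (s - 1)) = 0 := hcξ _ (by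
        rw [List.length_drop]; omega) ⟨fun _ _ => mem_univ _, fun x hx y hy =>
          s3.2 x (List.mem_of_mem_drop hx) y (List.mem_of_mem_drop hy)⟩
      have h8 := hg (ys.take (s + 1)) (by rw [List.length_take]; omega)
        ⟨fun _ _ => mem_univ _, fun x hx y hy => s2.2 x (List.mem_of_mem_take hx) y
          (List.mem_of_mem_take hy)⟩
      have h9 := h1' ys (by omega) s1
      rw [h8, pow_succ] at h9
      rw [h7]
      linear_combination h9
    by_cases hj : ∃ j, j ≤ h ∧ s + d - 1 = d * j
    · obtain ⟨j, hjh, hj⟩ := hj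
      obtain ⟨lam, hlam⟩ := B.line j hjh a₂ (hj ▸ hcl₂)
      obtain ⟨j', rfl⟩ : ∃ j', j = j' + 2 := by
        refine ⟨j - 2, ?_⟩
        have : ¬ j ≤ 1 := fun h => by
          have : d * j ≤ d * 1 := Nat.mul_le_mul_left d h
          omega
        omega
      have hjd : d * (j' + 2) = d * (j' + 1) + d := by ring
      have hjs : d * (j' + 1) = s - 1 := by omega
      refine ⟨fun l => (-(σ * κ⁻¹ * lam)) * (if l = [] then 0 else pw B.ξ d (j' + 1) l), ?_,
        fun l hl => ?_, ?_, ?_⟩
      · change (-(σ * κ⁻¹ * lam)) * (if ([] : List M) = [] then (0 : k) else _) = 0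
        rw [if_pos rfl, mul_zero]
      · change (-(σ * κ⁻¹ * lam)) * (if l = [] then (0 : k) else pw B.ξ d (j' + 1) l) = 0
        rw [pw_Nrm B.nξ (j' + 1) l hl, ite_self, mul_zero]
      · obtain ⟨ε, hε, hpw⟩ := pw_cocL B.hε hcξ (j' + 1)
        rw [hjs] at hpw
        refine ⟨ε, hε, fun l hl hsm => ?_⟩
        rw [N929.dl_smul_fun]
        have h3 : dl (fun l : List M => if l = [] then (0 : k) else pw B.ξ d (j' + 1) l) l =
            dl (pw B.ξ d (j' + 1)) l := N929.dl_congr fun l' h4 _ => by
          rw [if_neg]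
          rintro rfl
          simp at h4
          omega
        rw [h3, hpw l (by omega) hsm, mul_zero]
      · rw [hj]
        refine exL_congr hlam fun l hl => ?_
        have h5 := pw_succ_right B.ξ d (j' + 1) l (by omega)
        rw [h5, hjs, show s - 1 + 1 = s by omega, ha₂]
        have h6 : l.take s ≠ [] := by
          intro h
          have := congrArg List.length h
          rw [List.length_take, List.length_nil] at this
          omega
        change a l + σ * (((-(σ * κ⁻¹ * lam)) * (if l.take s = [] then (0 : k) else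
          pw B.ξ d (j' + 1) (l.take s)) - g (l.take s)) * (κ * B.ξ (l.drop (s - 1)))) =
          a l - σ * (g (l.take s) * (κ * B.ξ (l.drop (s - 1)))) -
          lam * (pw B.ξ d (j' + 1) (l.take s) * B.ξ (l.drop (s - 1)))
        rw [if_neg h6]
        have hκ1 : κ⁻¹ * κ = 1 := inv_mul_cancel₀ hκ
        linear_combination (-(lam * pw B.ξ d (j' + 1) (l.take s) * B.ξ (l.drop (s - 1)))) * hσσ -
          (σ * σ * lam * pw B.ξ d (j' + 1) (l.take s) * B.ξ (l.drop (s - 1))) * hκ1
    · refine ⟨fun _ => 0, rfl, fun _ _ => rfl, ⟨1, one_pos, fun l _ _ => ?_⟩, ?_⟩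
      · exact N929.dl_eq_zero fun _ _ _ => rfl
      · refine exL_congr (B.zero (s + d - 1) (fun j hj1 hj2 => hj ⟨j, hj1, hj2⟩) a₂ hcl₂)
          fun l _ => ?_
        rw [ha₂]
        ring
  obtain ⟨p, p0, np, ⟨r₂, hr₂, hp⟩, hex⟩ := key
  -- the normalised primitive
  set c' : List M → k := fun l => p l - g l with hc'
  have nc' : Nrm c' := fun l hl => by
    change p l - g l = 0
    rw [np l hl, ng l hl, sub_zero]
  set a₃ : List M → k := fun ys => a ys + σ * (c' (ys.take s) * (κ * B.ξ (ys.drop (s - 1)))) with ha₃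
  have ha₃' : a₃ = fun ys => a ys + (σ * κ) * N929.cup (s - 1) c' B.ξ ys := by
    funext ys
    rw [ha₃, N929.cup, show s - 1 + 1 = s by omega]
    ring
  have na₃ : Nrm a₃ := fun l hl => by
    rw [ha₃']
    change a l + (σ * κ) * N929.cup (s - 1) c' B.ξ l = 0
    rw [na l hl, N929.Nrm.cup (s - 1) nc' B.nξ l hl]
    ring
  have hcl₃ : CocL (univ : Set M) (s + d - 1) a₃ := by
    refine ⟨min r (min r₁ (min r₂ B.ε)), lt_min hr (lt_min hr₁ (lt_min hr₂ B.hε)),
      fun ys hl hsm => ?_⟩
    have s1 : SmL (univ : Set M) r ys := hsm.mono subset_rfl (min_le_left _ _)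
    have s2 : SmL (univ : Set M) r₁ ys := hsm.mono subset_rfl
      ((min_le_right _ _).trans (min_le_left _ _))
    have s3 : SmL (univ : Set M) r₂ ys := hsm.mono subset_rfl
      ((min_le_right _ _).trans ((min_le_right _ _).trans (min_le_left _ _)))
    have s4 : SmL (univ : Set M) B.ε ys := hsm.mono subset_rfl
      ((min_le_right _ _).trans ((min_le_right _ _).trans (min_le_right _ _)))
    rw [ha₃', N929.dl_add_fun, N929.dl_smul_fun, N929.dl_cup _ _ _ _ (by omega),
      show s - 1 + 2 = s + 1 by omega, show s - 1 + 1 = s by omega]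
    have h7 : dl B.ξ (ys.drop (s - 1)) = 0 := hcξ _ (by
      rw [List.length_drop]; omega) ⟨fun _ _ => mem_univ _, fun x hx y hy =>
        s4.2 x (List.mem_of_mem_drop hx) y (List.mem_of_mem_drop hy)⟩
    have h8 := hg (ys.take (s + 1)) (by rw [List.length_take]; omega)
      ⟨fun _ _ => mem_univ _, fun x hx y hy => s2.2 x (List.mem_of_mem_take hx) y
        (List.mem_of_mem_take hy)⟩
    have h10 := hp (ys.take (s + 1)) (by rw [List.length_take]; omega)
      ⟨fun _ _ => mem_univ _, fun x hx y hy => s3.2 x (List.mem_of_mem_take hx) y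
        (List.mem_of_mem_take hy)⟩
    have h11 : dl c' (ys.take (s + 1)) = -dl g (ys.take (s + 1)) := by
      have e1 : c' = fun l => p l + (-1) * g l := by
        funext l
        rw [hc']
        ring
      rw [e1, N929.dl_add_fun, N929.dl_smul_fun, h10]
      ring
    have h9 := h1' ys (by omega) s1
    rw [h8, pow_succ] at h9
    rw [h7, h11]
    linear_combination h9
  obtain ⟨b, b0, nb, r₃, hr₃, hb⟩ := nrm_prim0 (by omega) na₃ hcl₃ hex
  refine ⟨fun l => -b l, c', by simp [b0], by rw [hc']; simp [p0, g0],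
    fun l hl => by simp [nb l hl], nc', min (min r₁ r₂) r₃, lt_min (lt_min hr₁ hr₂) hr₃,
    fun ys hl hsm => ?_, fun ys hl hsm => ?_⟩
  · have h3 := hb ys (by omega) (hsm.mono subset_rfl (min_le_right _ _))
    have h4 : dl (fun l => -b l) ys = -dl b ys := by
      have := N929.dl_smul_fun (-1) b ys
      simpa using this
    have h5 : rc (d - 1 + 1) id c' (fun l => κ * B.ξ l) ys =
        c' (ys.take s) * (κ * B.ξ (ys.drop (s - 1))) := by
      have h6 := rc_base (s := s - 1) (κ := κ) (ξ := B.ξ) (c := c') (ys := ys)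
        (by omega) hd
      rwa [show s - 1 + 1 = s by omega] at h6
    rw [h4, h5, show ys.length - (d - 1) = s + 1 by omega]
    have h6 : a₃ ys = a ys + σ * (c' (ys.take s) * (κ * B.ξ (ys.drop (s - 1)))) := rfl
    rw [h6] at h3
    linear_combination h3
  · have h3 := hg ys (by omega) (hsm.mono subset_rfl ((min_le_left _ _).trans (min_le_left _ _)))
    rw [h3]
    have e1 : c' = fun l => p l + (-1) * g l := by
      funext l
      rw [hc']
      ring
    rcases Nat.lt_or_ge 1 1 with h | h
    · omega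
    · have h10 : dl p ys = 0 := hp ys (by omega)
        (hsm.mono subset_rfl ((min_le_left _ _).trans (min_le_right _ _)))
      rw [e1, N929.dl_add_fun, N929.dl_smul_fun, h10]
      ring

end Vale.Agent.P216.H140D
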