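import Vale.Agent.P216.H140D.R3K
import Vale.Agent.P216.H140D.BaseA
import Vale.Agent.P216.H977C.Mk8

/-!
# P216-D, block MID: `MidK` for the manifolds with monogenic cohomology
-/

set_option linter.all false

namespace Vale.Agent.P216.H140D

open Vale.Agent.P216.H977C (Fld MidK)

/-- **[MID]** for a class of fields. -/
theorem midK_all {Kf : Fld} {M : Type} [MetricSpace M] [CompactSpace M] [SimplyConnectedSpace M]
    [Nontrivial M] {ρ : ℝ} (hρ : 0 < ρ) (hU : LS.UniqSeg M ρ) {d h : ℕ} (hd : 2 ≤ d)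
    (hh : 1 ≤ h) (hb : ∀ (k : Type) [Field k], Kf k → Nonempty (H934D.BaseK k M d h)) :
    MidK Kf M (d * h) (d - 1) (d * (h + 1) - 2) := by
  have e1 : d * (h + 1) = d * h + d := by ring
  have e2 : d * h + (d - 1) - 1 = d * (h + 1) - 2 := by omega
  have h1 : MidEph Kf M (d - 1) (d * h + (d - 1) - 1) := by
    rw [e2]
    exact H977C.midEph hρ hU hd hh hb
      (fun k _ _ B q h1 h2 => baseEx hd B h1 h2 (pow_ne_zero _ (neg_ne_zero.2 one_ne_zero)))
      (by omega) (by omega)
  have h2 := midK_of_eph hρ hU hd (Nat.le_mul_of_pos_right d hh) hh hb h1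
  rwa [e2] at h2

end Vale.Agent.P216.H140D
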