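import Vale.Agent.P216.H140.RCls
import Vale.Agent.P216.MV337.Triv

/-!
# P216-D, block D3-F (`W_1 ≠ 0`): glueing a relative primitive, tracks in a small ball

* `exL_glue`: if `f = dl g` on the small lists of `D` with `g` zero on the small lists of `D ∩ K`,
  `f` is zero on the small lists of `K`, and the points near `M ∖ D` are in `K`, then `f` is exact.
* `tr_ball`: the segments to the centre are tracks in a small closed ball.
-/

set_option linter.all false

open Set Finsupp

namespace Vale.Agent.P216.H140D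

open Vale.Agent.P216.AS Vale.Agent.P216.PS Vale.Agent.P216.Sl Vale.Agent.P216.H140
open Vale.Agent.P216.MV337

variable {k : Type} [Field k] {M : Type}

theorem exL_glue [PseudoMetricSpace M] {D K : Set M} {n : ℕ} {f : List M → k}
    (h : ExR D (D ∩ K) n f) (hK : ∃ ε > 0, ∀ l, l.length = n + 1 → SmL K ε l → f l = 0)
    (hc : ∃ δ > 0, ∀ x y, dist x y < δ → x ∉ D → y ∈ K) : ExL (univ : Set M) n f := by
  classical
  obtain ⟨g, hg0, ⟨ε₁, h1, hv⟩, ε₂, h2, hg⟩ := h
  obtain ⟨ε₃, h3, hK⟩ := hK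
  obtain ⟨δ, hδ, hc⟩ := hc
  refine ⟨fun l => if ∀ x ∈ l, x ∈ D then g l else 0, fun h0 l => ?_,
    min (min ε₁ ε₂) (min ε₃ δ), by positivity, fun l hl hs => ?_⟩
  · simp only [hg0 h0, ite_self]
  · have s1 := hs.2
    have d1 : ∀ x ∈ l, ∀ y ∈ l, dist x y < ε₁ := fun x hx y hy => (s1 x hx y hy).trans_le
      ((min_le_left _ _).trans (min_le_left _ _))
    have d2 : ∀ x ∈ l, ∀ y ∈ l, dist x y < ε₂ := fun x hx y hy => (s1 x hx y hy).trans_le
      ((min_le_left _ _).trans (min_le_right _ _))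
    have d3 : ∀ x ∈ l, ∀ y ∈ l, dist x y < ε₃ := fun x hx y hy => (s1 x hx y hy).trans_le
      ((min_le_right _ _).trans (min_le_left _ _))
    have d4 : ∀ x ∈ l, ∀ y ∈ l, dist x y < δ := fun x hx y hy => (s1 x hx y hy).trans_le
      ((min_le_right _ _).trans (min_le_right _ _))
    by_cases hD : ∀ x ∈ l, x ∈ D
    · rw [hg l hl ⟨hD, d2⟩]
      refine N929.dl_congr fun l' _ hl' => ?_
      rw [if_pos fun x hx => hD x (hl' x hx)]
    · push Not at hD
      obtain ⟨x, hx, hxD⟩ := hD
      have hall : ∀ y ∈ l, y ∈ K := fun y hy => hc x y (d4 x hx y hy) hxD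
      rw [hK l hl ⟨hall, d3⟩]
      refine (N929.dl_eq_zero fun l' h4 h5 => ?_).symm
      by_cases hD' : ∀ x ∈ l', x ∈ D
      · rw [if_pos hD']
        exact hv l' (by omega) ⟨fun y hy => ⟨hD' y hy, hall y (h5 y hy)⟩,
          fun y hy z hz => d1 y (h5 y hy) z (h5 z hz)⟩
      · rw [if_neg hD']

/-- The segments to the centre `p` of a small ball, in time `c`. -/
noncomputable def sgT [MetricSpace M] (p : M) (c : ℝ) (x : M) (u : ℝ) : M :=
  LS.seg x p (max 0 (min (u / c) 1))

theorem tr_ball [MetricSpace M] [CompactSpace M] {ρ R c : ℝ} (hU : LS.UniqSeg M ρ) (hR : R < ρ)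
    (hc : 0 < c) (hRc : R ≤ c) (p : M) : Tr (Metric.closedBall p R) p c (sgT p c) := by
  have hm : ∀ u : ℝ, max 0 (min (u / c) 1) ∈ Icc (0 : ℝ) 1 := fun u =>
    ⟨le_max_left _ _, max_le zero_le_one (min_le_right _ _)⟩
  refine ⟨hc.le, fun x hx => ?_, fun x hx u hu => ?_, fun x hx u hu => ?_, ?_⟩
  · intro s t
    have hx' : dist x p < ρ := lt_of_le_of_lt hx hR
    rw [sgT, sgT, LS.dist_seg_seg hU hx' (hm _) (hm _)]
    have h1 : |max 0 (min (s / c) 1) - max 0 (min (t / c) 1)| ≤ |s / c - t / c| := by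
      refine (abs_max_sub_max_le_max _ _ _ _).trans ?_
      rw [sub_self, abs_zero, max_eq_right (abs_nonneg _)]
      refine (abs_min_sub_min_le_max _ _ _ _).trans ?_
      rw [sub_self, abs_zero, max_eq_left (abs_nonneg _)]
    have h2 : |s / c - t / c| * c = |s - t| := by
      rw [← sub_div, abs_div, abs_of_pos hc, div_mul_cancel₀ _ hc.ne']
    have h3 : dist x p ≤ c := hx.trans hRc
    calc |max 0 (min (s / c) 1) - max 0 (min (t / c) 1)| * dist x p
        ≤ |s / c - t / c| * c := mul_le_mul h1 h3 dist_nonneg (abs_nonneg _)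
      _ = |s - t| := h2
  · rw [sgT, show max 0 (min (u / c) 1) = 0 from max_eq_left
      ((min_le_left _ _).trans (div_nonpos_of_nonpos_of_nonneg hu hc.le)), LS.seg_zero]
  · rw [sgT, show max 0 (min (u / c) 1) = 1 from by
      rw [min_eq_right ((one_le_div hc).2 hu)]
      exact max_eq_right zero_le_one, LS.seg_one]
  · exact LS.ContinuousOn.seg hU continuousOn_fst continuousOn_const
      (by fun_prop) (fun a ha => lt_of_le_of_lt ha.1 hR) fun a _ => hm _

end Vale.Agent.P216.H140D
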