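import Vale.Agent.P216.H140D.Top
import Vale.Agent.P216.D337.Mid1

/-!
# P216-D, block MID (`h ≥ 2`): `MidK` from the output of the zigzag in the cone complex

`R3K` = the output of R3core for a class of fields; `midK_of`.
-/

set_option linter.all false

open Set Finsupp BoundedContinuousFunction

namespace Vale.Agent.P216.H140D

open Vale.Agent.P216.Sl Vale.Agent.P216.PS Vale.Agent.P216.H140
open Vale.Agent.P216.H456 (PF)
open Vale.Agent.P216.MV337 (evz)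
open Vale.Agent.P216.N929 (Coc Tau Scl stp Geo cutMod exists_scl)
open Vale.Agent.P216.H977C (Fld Eta AddE Mid MidK mid_of etaE etaE_add)

/-- **[R3core]** for a class of fields: if `v` is closed in the cone complex of the paths to `q`
and its first component is exact on the fibres, its last component is exact on `M`. The level `t₁`
does not depend on the field. -/
def R3K (Kf : Fld) (M : Type) [MetricSpace M] [CompactSpace M] (n d : ℕ) : Prop :=
  ∃ t₁ : ℝ, ∀ (k : Type) [Field k], Kf k → ∃ (ξ : List M → k) (εξ : ℝ), 0 < εξ ∧ Nrm ξ ∧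
    Coc (univ : Set M) εξ (d - 1 + 1) ξ ∧ ∀ Nη : ℕ, 1 / ((Nη : ℝ) + 1) < εξ / 4 →
    ∀ (L T : ℕ) (q : M), t₁ ≤ L → L ≤ T → ∀ v : H977C.K3.T3 k M (ℝ →ᵇ M), H977C.K3.Good v →
      H977C.K3.GZ (d - 1) (PF q (T : ℝ)) (n + (d - 1) + 1)
        (H977C.K3.D (d - 1) evz (etaR Nη T ξ) (fun l => (-1) ^ (d - 1) * ξ l) v) →
      (∀ x, ExL (P x q (L : ℝ)) (n + (d - 1) - 1) v.1) → ExL (univ : Set M) n v.2.2

/-- **MID for `h ≥ 2`.** -/
theorem midK_of {Kf : Fld} {M : Type} [MetricSpace M] [CompactSpace M] [SimplyConnectedSpace M]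
    [Nontrivial M] {ρ : ℝ} (hρ : 0 < ρ) (hU : LS.UniqSeg M ρ) {n d : ℕ} (hn : 2 ≤ n)
    (hd : 2 ≤ d) (hR : R3K Kf M n d) : MidK Kf M n (d - 1) (n + (d - 1) - 1) := by
  obtain ⟨a, b, hab⟩ := exists_pair_ne M
  obtain ⟨G, -⟩ := D337.exists_geoD hρ hU hn a
  obtain ⟨Dp, hDp, hne, -⟩ := H250.pi0 (G.hr.trans G.hrρ) G.seg
  obtain ⟨t₁, H⟩ := hR
  set m : ℕ := ⌈Dp⌉₊ with hm
  set L : ℕ := ⌈t₁⌉₊ + 1 with hL
  refine ⟨G, ((L + m : ℕ) : ℝ), by positivity, fun k _ hk τ hτ => ?_⟩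
  obtain ⟨ξ, εξ, hε, hξ, hc, H⟩ := H k hk
  obtain ⟨Nη, hNη⟩ := exists_nat_one_div_lt (show (0 : ℝ) < εξ / 4 by positivity)
  refine ⟨etaE Nη hξ hε hc hNη, etaE_add Nη hξ hε hc hNη,
    mid_of G τ _ (by positivity) (by omega) fun c => ?_⟩
  obtain ⟨η₀, h1⟩ := exists_scl (y := G.y (!c)) τ G.h1r (cutMod G.seg G.hr G.hrρ _)
    (show (0 : ℝ) < εξ / 4 by positivity)
  obtain ⟨N, hN⟩ := exists_nat_one_div_lt h1.pos
  refine ⟨1 / ((N : ℝ) + 1), by positivity, η₀, h1, hN, fun hW => ?_⟩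
  have he : 1 ≤ d - 1 := by omega
  have hcoc : ∀ T, Coc (P (G.y c) (G.y (!c)) T) (εξ / 4) (d - 1) (eta Nη ξ) := fun T =>
    H977C.eta_coc Nη hξ hc (by linarith) hNη _ _ T
  have hfib : ∀ x, ExL (P x (G.y c) (L : ℝ)) (n + (d - 1) - 1)
      (VV n τ.f (eta Nη ξ) G.r (G.y (!c)) N (L + m + m)) := fun x =>
    topV_fib hn G.seg G.hr G.hrρ h1 hcoc hN (G.hy c) (by omega)
      ((hne x (G.y c)).mono (PS.P_mono (Nat.le_ceil Dp))) hW
  have hcl := topV_closed (e := d - 1) (N := N) (T := L + m + m) (q := G.y c) (by omega) G.seg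
    G.hr G.hrρ hε hξ hc hNη h1 hN (G.hy c)
  have hfin := H Nη hNη L (L + m + m) (G.y c) ((Nat.le_ceil t₁).trans (by rw [hL]; push_cast; linarith))
    (by omega) _ (topV_good hξ) hcl hfib
  refine hτ (G.y (!c)) ?_
  obtain ⟨g, hg0, ε, hε', hg⟩ := hfin
  set κ : k := (-1) ^ (n + (d - 1) + 1) with hκ
  have hκ2 : κ * κ = 1 := by rw [hκ, ← mul_pow]; simp
  refine ⟨fun l => κ * g l, fun h0 => absurd h0 (by omega), ε, hε', fun l hl hs => ?_⟩
  have h2 := hg l hl hs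
  have h3 : (topV τ G.r (G.y (!c)) (d - 1) N Nη (L + m + m) ξ).2.2 l =
      κ * τ.f (l.map fun x => (x, G.y (!c))) := by
    change (if l = [] then (0 : k) else κ * slc τ (G.y (!c)) l) = _
    rw [if_neg]
    · rfl
    · rintro rfl
      simp at hl
  rw [h3] at h2
  rw [N929.dl_smul_fun, ← h2, ← mul_assoc, hκ2, one_mul]

end Vale.Agent.P216.H140D
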