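import Vale.Agent.P216.H140D.Top

/-!
# P216-D, block MID: `etaR` is not exact on the fibres
-/

set_option linter.all false

open Set Finsupp BoundedContinuousFunction

namespace Vale.Agent.P216.H140D

open Vale.Agent.P216.Sl Vale.Agent.P216.PS Vale.Agent.P216.H140
open Vale.Agent.P216.H456 (PF)
open Vale.Agent.P216.MV337 (evz)
open Vale.Agent.P216.N929 (Coc mesh)
open Vale.Agent.P216.H754B (rv rv_apply rv_mem_P)
open Vale.Agent.P216.H977C (eta_eq eta_front int_mul_mesh)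

variable {M : Type} [MetricSpace M] [CompactSpace M] {k : Type} [Field k]

/-- `etaR` on the reversed paths of duration `s ≤ T` is `η`. -/
theorem etaR_rv (N T s : ℕ) (hsT : s ≤ T) {ξ : List M → k} (hξ : Nrm ξ) {q x : M}
    {l : List (ℝ →ᵇ M)} (hl : 2 ≤ l.length) (h : ∀ w ∈ l, w ∈ P q x (s : ℝ)) :
    etaR N T ξ (l.map (rv (s : ℝ))) = eta N ξ l := by
  obtain ⟨m, rfl⟩ : ∃ m : ℕ, T = m + s := ⟨T - s, by omega⟩
  set G : (ℝ →ᵇ M) → ℝ →ᵇ M := fun w => rv ((m + s : ℕ) : ℝ) (rv (s : ℝ) w) with hG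
  have vG : ∀ w : ℝ →ᵇ M, ∀ u : ℝ, G w u = w (u - m) := by
    intro w u
    change rv ((m + s : ℕ) : ℝ) (rv (s : ℝ) w) u = _
    rw [rv_apply, rv_apply]
    congr 1
    push_cast
    ring
  have hne : l.map G ≠ [] := by
    intro h
    have := congrArg List.length h
    rw [List.length_map, List.length_nil] at this
    omega
  have e1 : etaR N (m + s) ξ (l.map (rv (s : ℝ))) = eta N ξ (l.map G) := by
    rw [etaR, List.map_map]
    refine (eta_eq N hξ (b := x) (T := ((m + s : ℕ) : ℝ)) (N' := (m + s) * (N + 1)) ?_ hne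
      fun w hw u hu => ?_).symm
    · exact (int_mul_mesh N (m + s)).ge
    · obtain ⟨v, hv, rfl⟩ := List.mem_map.1 hw
      rw [vG]
      push_cast at hu
      exact eq_right (h v hv) (by linarith)
  rw [e1]
  refine eta_front N hξ m (fun _ => q) G l hl fun w hw => ⟨fun u h0 h1 => ?_, fun u _ => vG w u⟩
  rw [vG]
  exact eq_left (h w hw) (by linarith)

/-- **`etaR` is not exact on the fibres.** -/
theorem etaR_ne {N T s e : ℕ} (he : 1 ≤ e) (hsT : s ≤ T) {ξ : List M → k} (hξ : Nrm ξ) {s₀ : ℝ}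
    (hs₀ : s₀ ≤ s) {q x : M} (h : ¬ ExL (P q x s₀) e (eta N ξ)) :
    ¬ ExL (P x q (s : ℝ)) e (etaR N T ξ) := by
  intro hex
  refine h ?_
  have h1 := exL_rv hex
  have h2 : ExL (P q x (s : ℝ)) e (eta N ξ) := by
    obtain ⟨g, hg, ε, hε, h1⟩ := h1
    refine ⟨g, hg, ε, hε, fun l hl hs => ?_⟩
    rw [← h1 l hl hs]
    exact (etaR_rv N T s hsT hξ (by omega) hs.1).symm
  exact h2.mono (P_mono hs₀)

end Vale.Agent.P216.H140D
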