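import Vale.Agent.P216.H140D.MidK
import Vale.Agent.P216.H140D.TopNe
import Vale.Agent.P216.H456D.MidF
import Vale.Agent.P216.H977C.Mk4
import Vale.Agent.P216.H994.EtaNeF

/-!
# P216-D, block MID: R3 from R2

`MidEph` = the output of R2 (the classes of the based loops of degree `q`, `e < q < D`, are zero);
`r3K_of`, `midK_of_eph`.
-/

set_option linter.all false

open Set Finsupp BoundedContinuousFunction

namespace Vale.Agent.P216.H140D

open Vale.Agent.P216.Sl Vale.Agent.P216.PS Vale.Agent.P216.H140 Vale.Agent.P216.H456D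
open Vale.Agent.P216.H456 (PF PF_mono P_subset_PF)
open Vale.Agent.P216.MV337 (evz)
open Vale.Agent.P216.N929 (Coc)
open Vale.Agent.P216.H977C (Fld LowK MidK)

/-- **[R2]** for a class of fields: the classes of degree `q`, `e < q < D`, of the paths from `a`
to `b` are zero; the loss does not depend on the field. -/
def MidEph (Kf : Fld) (M : Type) [MetricSpace M] (e D : ℕ) : Prop :=
  ∃ B : ℝ, 0 ≤ B ∧ ∀ (k : Type) [Field k], Kf k → ∀ q, e < q → q < D → ∀ a b : M, ∀ t > 0,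
    ∀ F : List (ℝ →ᵇ M) → k, CocL (P a b (t + B)) q F → ExL (P a b t) q F

theorem base_ne_one {k M : Type} [Field k] [MetricSpace M] {d h : ℕ} (hh : 1 ≤ h)
    (B : H934D.BaseK k M d h) : ¬ ExL (univ : Set M) d B.ξ := by
  intro hx
  refine B.ne 1 hh ?_
  rw [Nat.mul_one]
  refine H977C.K3.exL_congr_dl hx fun l hl _ => ?_
  change B.ξ (l.take (d + 1)) * (if (l.drop d).length = 1 then (1 : k) else 0) = B.ξ l
  rw [if_pos (by rw [List.length_drop]; omega), mul_one, List.take_of_length_le (by omega)]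

theorem lowL_mono {k M : Type} [Field k] [MetricSpace M] {B B' : ℝ} {j : ℕ} (h : B ≤ B')
    (hL : LowL k M B j) : LowL k M B' j := fun a b t ht f f' hf hf' hc hc' =>
  hL a b t ht f f' hf hf' (hc.mono (P_mono (by linarith))) (hc'.mono (P_mono (by linarith)))

variable {Kf : Fld} {M : Type} [MetricSpace M] [CompactSpace M] [SimplyConnectedSpace M] {ρ : ℝ}

/-- **R3 from R2.** -/
theorem r3K_of (hρ : 0 < ρ) (hU : LS.UniqSeg M ρ) {n d h : ℕ} (hd : 2 ≤ d) (hdn : d ≤ n)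
    (hh : 1 ≤ h)
    (hb : ∀ (k : Type) [Field k], Kf k → Nonempty (H934D.BaseK k M d h))
    (hR : MidEph Kf M (d - 1) (n + (d - 1) - 1)) : R3K Kf M n d := by
  obtain ⟨B0, hB0, hL⟩ := H934D.lowK_of_base Kf hρ hU (by omega) hh hb
  obtain ⟨s₀, hs₀, hE⟩ := H994.etaNeK_of_low hρ hU hd hB0 hL
  obtain ⟨B2, hB2, hR⟩ := hR
  obtain ⟨D, hD⟩ := C313.exists_isPi hρ hU
  obtain ⟨x₀⟩ := (inferInstance : Nonempty M)
  obtain ⟨c, r0, hF⟩ := H971.Low.exists_fibPF hρ hU x₀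
  have hD0 := hD.nonneg
  have hc : 0 ≤ c := by
    obtain ⟨φ, ψ, U, -⟩ := hF x₀
    exact U.hc
  set e := d - 1 with he
  have he1 : 1 ≤ e := by omega
  set Bm := max B0 B2 with hBm
  have hBm0 : 0 ≤ Bm := hB0.trans (le_max_left _ _)
  set β : ℝ := 2 * c + D + Bm with hβ
  have hβ0 : 0 ≤ β := by positivity
  set s : ℕ := ⌈max s₀ D⌉₊ + 1 with hs
  have hs1 : max s₀ D ≤ s := by
    rw [hs]
    push_cast
    linarith [Nat.le_ceil (max s₀ D)]
  have hss₀ : s₀ ≤ s := (le_max_left _ _).trans hs1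
  have hsD : D ≤ s := (le_max_right _ _).trans hs1
  have hs0 : (0 : ℝ) < s := by
    rw [hs]
    push_cast
    positivity
  refine ⟨s + (n + e : ℕ) * β, fun k _ hk => ?_⟩
  obtain ⟨B⟩ := hb k hk
  refine ⟨B.ξ, B.ε, B.hε, B.nξ, ?_, fun Nη hNη L T q hL1 hLT v hv hGZ hfib => ?_⟩
  · rw [show e + 1 = d by omega]
    exact B.cξ
  have hcξ : Coc (univ : Set M) B.ε (e + 1) B.ξ := by
    rw [show e + 1 = d by omega]
    exact B.cξ
  obtain ⟨φ, ψ, U, -⟩ := hF q
  have hLT' : (L : ℝ) ≤ T := by exact_mod_cast hLT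
  have hnβ : (0 : ℝ) ≤ (n + e : ℕ) * β := by positivity
  have hsT : (s : ℝ) ≤ T := by linarith
  have hsT' : s ≤ T := by exact_mod_cast hsT
  have hdata := topData (T := T) (q := q) he1 B.hε B.nξ hcξ hNη
  have hne : ∀ x, ¬ ExL (P x q (s : ℝ)) e (etaR Nη T B.ξ) := fun x =>
    etaR_ne he1 hsT' B.nξ hss₀ (hE k hk B.ξ B.ε B.hε B.nξ B.cξ (base_ne_one hh B) Nη hNη q x)
  have hne' : ∀ t : ℝ, (s : ℝ) ≤ t → ∀ x, ¬ ExL (P x q t) e (etaR Nη T B.ξ) := fun t ht x h =>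
    hne x (h.mono (P_mono ht))
  -- the null degrees
  have hN : ∀ j, 1 ≤ j → j < n + e → j ≠ 1 → j ≠ e + 1 → ∀ t > 0,
      ∀ F : List (ℝ →ᵇ M) → k, CocL (P x₀ q (t + Bm)) (j - 1) F → ExL (P x₀ q t) (j - 1) F := by
    intro j h1 h2 h3 h4 t ht F hF
    rcases Nat.lt_or_ge (j - 1) e with h5 | h5
    · exact H994.lowZ_all ((hL k hk).2 (j - 1) (by omega) h5) (by omega) ht.le
        (by linarith [le_max_left B0 B2]) x₀ q (P_mono (by linarith)) F hF
    · exact hR k hk (j - 1) (by omega) (by omega) x₀ q t ht F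
        (hF.mono (P_mono (by linarith [le_max_right B0 B2])))
  have a1 : H977C.K3.GZ e (PF q ((s : ℝ) + (n + e : ℕ) * β)) (n + e + 1)
      (H977C.K3.D e evz (etaR Nη T B.ξ) (fun l => (-1) ^ e * B.ξ l) v) := by
    obtain ⟨r', hr', a1, a2, a3⟩ := hGZ
    exact ⟨r', hr', fun l b1 b2 => a1 l b1 (b2.mono (PF_mono (by linarith)) le_rfl), a2, a3⟩
  have a2 : ∀ x, ExL (H892.fbr evz (PF q ((s : ℝ) + (n + e : ℕ) * β)) x) (n + e - 1) v.1 := by
    intro x
    rw [fbr_PF]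
    exact (hfib x).mono (P_mono hL1)
  obtain ⟨u, gu, r, hr, -, -, h3⟩ := H977C.K3.exact_of_fibres (X := fun t => PF q t)
    (fun s t h => PF_mono h) hβ0 hdata (ne_PF hD hsD) (fibNe_PF he1 hne) (m := n + e) (by omega)
    (fun j h1 h2 t ht htT => fibS_PF U hD hBm0 le_rfl htT (hs0.trans_le ht) h1
      (hN j h1 h2) (fun _ => lowL_mono (le_max_left _ _) ((hL k hk).1 e (by omega) le_rfl)) hdata
      fun _ => hne' t ht)
    (fun t ht _ => fibLoc_PF U (hs0.trans_le ht) (by linarith) _) (t := (s : ℝ)) le_rfl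
    (by linarith) hv a1 a2
  refine ⟨fun ys => -u.2.2 ys, fun h0 => absurd h0 (by omega), r, hr, fun l hl hsm => ?_⟩
  have h4 := h3 l (by omega) hsm
  have h5 : v.2.2 l - -dl u.2.2 l = 0 := h4
  have h6 : dl (fun ys => -u.2.2 ys) l = -dl u.2.2 l := by
    have := N929.dl_smul_fun (-1) u.2.2 l
    simpa using this
  rw [h6]
  linear_combination h5

/-- **[MID] for `h ≥ 2` from R2.** -/
theorem midK_of_eph [Nontrivial M] (hρ : 0 < ρ) (hU : LS.UniqSeg M ρ) {n d h : ℕ} (hd : 2 ≤ d)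
    (hdn : d ≤ n) (hh : 1 ≤ h)
    (hb : ∀ (k : Type) [Field k], Kf k → Nonempty (H934D.BaseK k M d h))
    (hR : MidEph Kf M (d - 1) (n + (d - 1) - 1)) : MidK Kf M n (d - 1) (n + (d - 1) - 1) :=
  midK_of hρ hU (by omega) hd (r3K_of hρ hU hd hdn hh hb hR)

end Vale.Agent.P216.H140D
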