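import Vale.Agent.P216.H140D.W1K
import Vale.Agent.P216.H977C.Mk3
import Vale.Agent.P216.H977C.Eta

/-!
# P216-D, block MID: the top class of the cone complex (R3)

`etaR` = the fibre integral of `ξ` over `[0, T]`, on the reversed paths; `cut_split`: the value of
`η` on (reversed path) · (segment to `p`) is `etaR + γ ∘ π`.
-/

set_option linter.all false

open Set Finsupp BoundedContinuousFunction

namespace Vale.Agent.P216.H140D

open Vale.Agent.P216.AS Vale.Agent.P216.H901 Vale.Agent.P216.H83 Vale.Agent.P216.Sl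
open Vale.Agent.P216.H456 Vale.Agent.P216.H456C Vale.Agent.P216.MV337 Vale.Agent.P216.H133C
open Vale.Agent.P216.PS Vale.Agent.P216.H140
open Vale.Agent.P216.N929 (Coc Fine Tau Scl Cy stp one1 mesh edge cutp intg)
open Vale.Agent.P216.H754B (rv rv_apply rv_mem_P dist_rv_le lip_rv)
open Vale.Agent.P216.H977C (Nrm_const int_mul_mesh grid_small edge_mem' gr_times fib_edge_shift
  eta_eq dl_eta eta_nrm)

variable {M : Type} [MetricSpace M] [CompactSpace M] {k : Type} [Field k]

/-- The fibre integral over `[0, T]` of `ξ`, on the reversed paths. -/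
noncomputable def etaR (N T : ℕ) (ξ : List M → k) (l : List (ℝ →ᵇ M)) : k :=
  N929.fib (mesh k (1 / ((N : ℝ) + 1)) (T * (N + 1))) (fun L => ξ (L.map evw)) (l.map (rv T))

theorem dl_etaR (N T : ℕ) {ξ : List M → k} (hξ : Nrm ξ) {e : ℕ} {εξ ε : ℝ}
    (hc : Coc (univ : Set M) εξ (e + 1) ξ) (h2 : 2 * ε ≤ εξ) (hN : 1 / ((N : ℝ) + 1) < ε) {q : M}
    {l : List (ℝ →ᵇ M)} (hl : l.length = e + 2) (hf : Fine (PF q (T : ℝ)) ε l) :
    dl (etaR N T ξ) l = (-1) ^ e * ξ (l.map evz) := by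
  have hδ0 : (0 : ℝ) < 1 / ((N : ℝ) + 1) := by positivity
  set l' := l.map (rv (T : ℝ)) with hl'
  have hlen : l'.length = e + 2 := by rw [hl', List.length_map, hl]
  have hne : l' ≠ [] := by
    intro h
    rw [h] at hlen
    simp at hlen
  have hL : ∀ w ∈ l', Lip (w : ℝ → M) := by
    intro w hw
    obtain ⟨v, hv, rfl⟩ := List.mem_map.1 hw
    exact lip_rv (hf.1 v hv).1 _
  have hd : ∀ w ∈ l', ∀ w' ∈ l', dist w w' < ε := by
    intro w hw w' hw'
    obtain ⟨v, hv, rfl⟩ := List.mem_map.1 hw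
    obtain ⟨v', hv', rfl⟩ := List.mem_map.1 hw'
    exact (dist_rv_le _ v v').trans_lt (hf.2 v hv v' hv')
  have e0 : dl (etaR N T ξ) l = dl (N929.fib (mesh k (1 / ((N : ℝ) + 1)) (T * (N + 1)))
      fun L => ξ (L.map evw)) l' := N929.dl_map (N929.fib (mesh k (1 / ((N : ℝ) + 1))
      (T * (N + 1))) fun L => ξ (L.map evw)) (rv (T : ℝ)) l
  rw [e0, N929.dl_fib (N929.mesh_Ln _ _) _ hne, N929.bd_mesh, map_sub, map_sub,
    N929.ev_sh_point _ hne, N929.ev_sh_point _ hne]
  have e1 : N929.fib (mesh k (1 / ((N : ℝ) + 1)) (T * (N + 1))) (dl fun L => ξ (L.map evw)) l' =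
      0 := by
    refine N929.fib_eq_zero (N929.mesh_mem _ _) fun t ht L hL' => ?_
    obtain ⟨j, _, rfl⟩ := ht
    have hLl : L.length = e + 1 + 2 := by
      have := hL'.1
      simp only [List.length_cons, List.length_nil] at this
      omega
    rw [N929.dl_map ξ evw]
    refine hc _ (by rw [List.length_map, hLl]) ⟨fun _ _ => mem_univ _, ?_⟩
    intro x hx y hy
    obtain ⟨p, hp, rfl⟩ := List.mem_map.1 hx
    obtain ⟨q, hq, rfl⟩ := List.mem_map.1 hy
    exact (grid_small hδ0 hN hL hd hL' hp hq).trans_le h2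
  have e2 : ((l'.map fun a => (a, ((T * (N + 1) : ℕ) : ℝ) * (1 / ((N : ℝ) + 1)))).map evw) =
      l.map evz := by
    rw [hl', List.map_map, List.map_map]
    refine List.map_congr_left fun w _ => ?_
    change rv T w (((T * (N + 1) : ℕ) : ℝ) * (1 / ((N : ℝ) + 1))) = w 0
    rw [int_mul_mesh, rv_apply, sub_self]
  have e3 : ξ ((l'.map fun a => (a, (0 : ℝ))).map evw) = 0 := by
    refine Nrm_const hξ (a := q) (by rw [List.length_map, List.length_map]; omega) fun x hx => ?_
    obtain ⟨p, hp, rfl⟩ := List.mem_map.1 hx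
    obtain ⟨w, hw, rfl⟩ := List.mem_map.1 hp
    obtain ⟨v, hv, rfl⟩ := List.mem_map.1 hw
    change rv T v 0 = q
    rw [rv_apply, sub_zero]
    exact (hf.1 v hv).2.2 _ le_rfl
  rw [e1, e2, e3, hlen, pow_add]
  ring

/-- The segment from `y` to `p`, as a path. -/
noncomputable def segP (r : ℝ) (p y : M) : ℝ →ᵇ M := cutp r p (cst y, 0)

theorem segP_apply {ρ₀ r : ℝ} (hU : LS.UniqSeg M ρ₀) (hr : 0 < r) (hrρ : r < ρ₀) {p y : M}
    (hy : dist y p ≤ r) (u : ℝ) : segP r p y u = spl r (cst y) (cst p) 0 0 u :=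
  splice_apply hU hr hrρ (lip_cst y) (lip_cst p) (by simpa using hy) u

theorem segP_mem {ρ₀ r : ℝ} (hU : LS.UniqSeg M ρ₀) (hr : 0 < r) (hrρ : r < ρ₀) {p y : M}
    (hy : dist y p ≤ r) : segP r p y ∈ P y p r := by
  have := splice_mem (σ := 0) (τ := 0) (t := 0) (a := y) (b := p) hU hr hrρ (lip_cst y)
    (lip_cst p) (by simpa using hy) le_rfl le_rfl (fun _ _ => rfl) (fun _ _ => rfl)
  simpa [segP, cutp] using this

/-- The splitting at the integer time `T`. -/
theorem cut_split (N T : ℕ) {ξ : List M → k} (hξ : Nrm ξ) {ρ₀ r : ℝ} (hU : LS.UniqSeg M ρ₀)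
    (hr : 0 < r) (hrρ : r < ρ₀) {p q : M} {l : List (ℝ →ᵇ M)} (hne : l ≠ [])
    (hl : ∀ w ∈ l, w ∈ PF q (T : ℝ) ∧ dist (w 0) p ≤ r) :
    eta N ξ (l.map fun w => cutp r p (rv T w, (T : ℝ))) =
      etaR N T ξ l + eta N ξ ((l.map evz).map (segP r p)) := by
  set δ : ℝ := 1 / ((N : ℝ) + 1) with hδ
  have hδ0 : (0 : ℝ) < δ := by positivity
  have hT0 : (0 : ℝ) ≤ T := by positivity
  set A : (ℝ →ᵇ M) → ℝ →ᵇ M := fun w => cutp r p (rv T w, (T : ℝ)) with hA
  set R : ℕ := ⌈r⌉₊ with hR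
  have hrR : r ≤ R := Nat.le_ceil r
  have hcδ : ∀ c : ℕ, ((c * (N + 1) : ℕ) : ℝ) * δ = c := int_mul_mesh N
  have vA : ∀ w ∈ l, ∀ u, A w u = spl r (rv T w) (cst p) T 0 u := by
    intro w hw u
    refine splice_apply hU hr hrρ (lip_rv (hl w hw).1.1 _) (lip_cst p) ?_ u
    rw [rv_apply, sub_self, cst_apply]
    exact (hl w hw).2
  have vS : ∀ w ∈ l, ∀ u, segP r p (evz w) u = spl r (cst (w 0)) (cst p) 0 0 u := fun w hw u =>
    segP_apply hU hr hrρ (hl w hw).2 u
  have hAS : ∀ w ∈ l, ∀ u, 0 ≤ u → A w (T + u) = segP r p (evz w) u := by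
    intro w hw u hu
    rw [vA w hw, vS w hw]
    rcases le_total u r with h | h
    · rw [spl_mid (by linarith) (by linarith), spl_mid hu (by linarith), rv_apply, sub_self,
        cst_apply, cst_apply, add_sub_cancel_left, sub_zero]
    · rw [spl_right hr (by linarith), spl_right hr (by linarith), cst_apply, cst_apply]
  have a1 : eta N ξ (l.map A) = N929.fib (mesh k δ (T * (N + 1) + R * (N + 1)))
      (fun L => ξ (L.map evw)) (l.map A) := by
    refine eta_eq N hξ (b := p) (T := T + r) ?_ (by simpa using hne) fun w hw u hu => ?_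
    · rw [← hδ, Nat.cast_add, add_mul, hcδ, hcδ]
      linarith
    · obtain ⟨v, hv, rfl⟩ := List.mem_map.1 hw
      rw [vA v hv, spl_right hr (by linarith), cst_apply]
  have a3 : eta N ξ ((l.map evz).map (segP r p)) = N929.fib (mesh k δ (R * (N + 1)))
      (fun L => ξ (L.map evw)) ((l.map evz).map (segP r p)) := by
    refine eta_eq N hξ (b := p) (T := r) ?_ (by simpa using hne) fun w hw u hu => ?_
    · rw [← hδ, hcδ]
      exact hrR
    · obtain ⟨y, hy, rfl⟩ := List.mem_map.1 hw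
      obtain ⟨v, hv, rfl⟩ := List.mem_map.1 hy
      rw [vS v hv, spl_right hr (by linarith), cst_apply]
  rw [a1, a3, etaR, N929.fib_mesh, N929.fib_mesh, N929.fib_mesh, Finset.sum_range_add]
  congr 1
  · refine Finset.sum_congr rfl fun i hi => ?_
    rw [N929.fib_map, N929.fib_map]
    refine N929.fib_congr (edge_mem' δ i) fun t ht L hL => ?_
    subst ht
    have hi' : ((i + 1 : ℕ) : ℝ) * δ ≤ T := by
      rw [← hcδ T]
      exact mul_le_mul_of_nonneg_right (by exact_mod_cast Finset.mem_range.1 hi) hδ0.le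
    rw [List.map_map, List.map_map]
    congr 1
    refine List.map_congr_left fun p hp => ?_
    obtain ⟨h1, h2, h3⟩ := gr_times hδ0 hL hp
    change A p.1 p.2 = rv T p.1 p.2
    rw [vA _ h1, spl_left (h3.trans hi')]
  · refine Finset.sum_congr rfl fun i hi => ?_
    rw [fib_edge_shift δ T i N hδ, List.map_map, N929.fib_map, N929.fib_map]
    refine N929.fib_congr (edge_mem' δ i) fun t ht L hL => ?_
    subst ht
    rw [List.map_map, List.map_map, List.map_map]
    congr 1
    refine List.map_congr_left fun p hp => ?_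
    obtain ⟨h1, h2, h3⟩ := gr_times hδ0 hL hp
    have h6 : (0 : ℝ) ≤ (i : ℝ) * δ := by positivity
    exact hAS _ h1 _ (h6.trans h2)

theorem dist_cst (y y' : M) : dist (cst y) (cst y') ≤ dist y y' :=
  (BoundedContinuousFunction.dist_le dist_nonneg).2 fun _ => le_rfl

/-- The coboundary of `γ`. -/
theorem dl_gam (N : ℕ) {ξ : List M → k} (hξ : Nrm ξ) {e n : ℕ} {εξ ε η₀ ρ₀ ρ₁ r : ℝ}
    (hc : Coc (univ : Set M) εξ (e + 1) ξ) (h2 : 2 * ε ≤ εξ) (hN : 1 / ((N : ℝ) + 1) < ε)
    (hU : LS.UniqSeg M ρ₀) (hr : 0 < r) (hrρ : r < ρ₀) {p : M} {τ : Tau k M n ρ₁}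
    (hs : Scl τ r p ε η₀) {ys : List M} (hl : ys.length = e + 2) (hy : ∀ y ∈ ys, dist y p ≤ r)
    (hf : ∀ y ∈ ys, ∀ y' ∈ ys, dist y y' < η₀) :
    dl (fun ys => eta N ξ (ys.map (segP r p))) ys = (-1) ^ (e + 1) * ξ ys := by
  rw [N929.dl_map (eta N ξ) (segP r p), dl_eta N hξ hc h2 hN (b := p) (T := r)
    (by rw [List.length_map, hl]) ⟨fun w hw => ?_, fun w hw w' hw' => ?_⟩]
  · congr 2
    rw [List.map_map]
    conv_rhs => rw [← List.map_id ys]
    refine List.map_congr_left fun y hy' => ?_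
    exact eq_left (segP_mem hU hr hrρ (hy y hy')) le_rfl
  · obtain ⟨y, hy', rfl⟩ := List.mem_map.1 hw
    exact H456.P_subset_PF (segP_mem hU hr hrρ (hy y hy'))
  · obtain ⟨y, h3, rfl⟩ := List.mem_map.1 hw
    obtain ⟨y', h4, rfl⟩ := List.mem_map.1 hw'
    exact hs.mod (cst y) (cst y') (lip_cst y) (lip_cst y') 0 0 (by simpa using hy y h3)
      (by simpa using hy y' h4) ((dist_cst y y').trans_lt (hf y h3 y' h4))
      (by rw [sub_self, abs_zero]; exact hs.pos)

/-! ### The top class -/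

/-- The slice of `τ`. -/
def slc {n : ℕ} {ρ₁ : ℝ} (τ : Tau k M n ρ₁) (p : M) (l : List M) : k :=
  τ.f (l.map fun x => (x, p))

/-- The top class of the cone complex. -/
noncomputable def topV {n : ℕ} {ρ₁ : ℝ} (τ : Tau k M n ρ₁) (r : ℝ) (p : M) (e N Nη T : ℕ)
    (ξ : List M → k) : H977C.K3.T3 k M (ℝ →ᵇ M) :=
  (VV n τ.f (eta Nη ξ) r p N T,
    fun ys => (-1) ^ (n + e + 1) * N929.cup n (slc τ p) (fun ys => eta Nη ξ (ys.map (segP r p))) ys,
    fun ys => if ys = [] then 0 else (-1) ^ (n + e + 1) * slc τ p ys)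

theorem fib_nil {α β : Type} (c : Ch k β) (F : List (α × β) → k) : N929.fib c F [] = 0 := by
  rw [N929.fib, sh_nil_left, map_zero]

theorem eta_nil (N : ℕ) (ξ : List M → k) : eta N ξ [] = 0 := by
  rw [eta, N929.fibI]
  exact finsum_eq_zero_of_forall_eq_zero fun j => fib_nil _ _

section

variable {n e N Nη T : ℕ} {ρ₀ ρ₁ r εξ η₀ : ℝ} {p q : M} {τ : Tau k M n ρ₁} {ξ : List M → k}

theorem slc_nrm : Nrm (slc τ p) := τ.nrm.map fun x => (x, p)

theorem topV_good (hξ : Nrm ξ) : H977C.K3.Good (topV τ r p e N Nη T ξ) where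
  f0 := fib_nil _ _
  a0 := by
    change (-1 : k) ^ (n + e + 1) * (slc τ p (([] : List M).take (n + 1)) *
      eta Nη ξ ((([] : List M).drop n).map (segP r p))) = 0
    rw [List.drop_nil, List.map_nil, eta_nil, mul_zero, mul_zero]
  c0 := by
    change (if ([] : List M) = [] then (0 : k) else (-1) ^ (n + e + 1) * slc τ p []) = 0
    exact if_pos rfl
  na := fun l hl => by
    change (-1 : k) ^ (n + e + 1) * N929.cup n (slc τ p)
      (fun ys => eta Nη ξ (ys.map (segP r p))) l = 0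
    rw [N929.Nrm.cup n slc_nrm ((eta_nrm Nη hξ).map (segP r p)) l hl, mul_zero]
  nc := fun l hl => by
    change (if l = [] then (0 : k) else (-1) ^ (n + e + 1) * slc τ p l) = 0
    rw [slc_nrm l hl, mul_zero, ite_self]

/-- The data of the cone complex. -/
theorem topData (he : 1 ≤ e) (hε : 0 < εξ) (hξ : Nrm ξ)
    (hc : Coc (univ : Set M) εξ (e + 1) ξ) (hN : 1 / ((Nη : ℝ) + 1) < εξ / 4) :
    H977C.K3.Data evz e (etaR Nη T ξ) (fun l => (-1) ^ e * ξ l) (PF q (T : ℝ)) (εξ / 4) where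
  hε := by positivity
  he := he
  hπ w w' := BoundedContinuousFunction.dist_coe_le_dist 0
  nξ := hξ.smul _
  dη l hl hs := dl_etaR Nη T hξ hc (by linarith) hN hl hs
  dξ l hl hs := by
    rw [N929.dl_smul_fun, hc l (by omega) ⟨hs.1, fun x hx y hy => (hs.2 x hx y hy).trans_le
      (by linarith)⟩, mul_zero]

/-- The points near `p`. -/
theorem near_of_slc {ys : List M} {r₀ : ℝ} (hs : Scl τ r p (εξ / 4) η₀) (hr₀ : r₀ ≤ η₀)
    (hne : ys ≠ []) (hf : ∀ y ∈ ys, ∀ y' ∈ ys, dist y y' < r₀)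
    (h : slc τ p (ys.take (n + 1)) ≠ 0) : ∀ y ∈ ys, dist y p ≤ r := by
  obtain ⟨z, ys, rfl⟩ := List.exists_cons_of_ne_nil hne
  have h1 : dist z p < ρ₁ := by
    by_contra hcon
    refine h (τ.supp _ ⟨(z, p), List.mem_map.2 ⟨z, ?_, rfl⟩, not_lt.1 hcon⟩)
    rw [List.take_succ_cons]
    exact List.mem_cons_self
  intro y hy
  have h2 := hf y hy z List.mem_cons_self
  have h3 := hs.h3
  have h4 := hs.pos
  linarith [dist_triangle y z p]

theorem slc_dl {ys : List M} {r₀ : ℝ} (hs : Scl τ r p (εξ / 4) η₀) (hr₀ : r₀ ≤ η₀)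
    (hl : ys.length = n + 2) (hf : ∀ y ∈ ys, ∀ y' ∈ ys, dist y y' < r₀) :
    dl (slc τ p) ys = 0 := by
  have h2 := hs.h2
  have h4 := hs.pos
  have e1 : dl (slc τ p) ys = dl τ.f (ys.map fun x => (x, p)) :=
    N929.dl_map τ.f (fun x => (x, p)) ys
  rw [e1]
  refine τ.coc _ (by rw [List.length_map, hl]) ⟨fun _ _ => mem_univ _, fun a ha b hb => ?_⟩
  obtain ⟨x, hx, rfl⟩ := List.mem_map.1 ha
  obtain ⟨y, hy, rfl⟩ := List.mem_map.1 hb
  rw [Prod.dist_eq, dist_self, max_eq_left dist_nonneg]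
  linarith [hf x hx y hy]

/-- **The top class is closed.** -/
theorem topV_closed (hn : 1 ≤ n) (hU : LS.UniqSeg M ρ₀) (hr : 0 < r) (hrρ : r < ρ₀)
    (hε : 0 < εξ) (hξ : Nrm ξ) (hc : Coc (univ : Set M) εξ (e + 1) ξ)
    (hNη : 1 / ((Nη : ℝ) + 1) < εξ / 4) (hs : Scl τ r p (εξ / 4) η₀)
    (hN : 1 / ((N : ℝ) + 1) < η₀) (hqp : ρ₁ ≤ dist q p) :
    H977C.K3.GZ e (PF q (T : ℝ)) (n + e + 1)
      (H977C.K3.D e evz (etaR Nη T ξ) (fun l => (-1) ^ e * ξ l) (topV τ r p e N Nη T ξ)) := by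
  have hη₀ := hs.pos
  set κ : k := (-1) ^ (n + e + 1) with hκ
  refine ⟨η₀, hη₀, fun l hl hsm => ?_, fun ys hl hsm => ?_, fun ys hl hsm => ?_⟩
  · have hdV : dl (VV n τ.f (eta Nη ξ) r p N T) l = κ * H140.Th n τ.f (eta Nη ξ) r p T l :=
      H923C.v1 k M n e N T ρ₀ ρ₁ r (εξ / 4) η₀ p q τ (eta Nη ξ) hU hr hrρ hn hs
        (fun T' => H977C.eta_coc Nη hξ hc (by linarith) hNη q p T') hN hqp l hl hsm
    have hTh : H140.Th n τ.f (eta Nη ξ) r p T l = slc τ p ((l.map evz).take (n + 1)) *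
        eta Nη ξ ((l.drop n).map fun w => cutp r p (rv T w, (T : ℝ))) := by
      rw [H140.Th, N929.intg, N929.cup, slc, ← List.map_take, ← List.map_drop, List.map_map,
        List.map_map, ← List.map_take, List.map_map]
      congr 2
      refine List.map_congr_left fun w _ => ?_
      change (rv T w T, p) = (w 0, p)
      rw [rv_apply, sub_self]
    have hrc : H977C.K3.rc e evz (topV τ r p e N Nη T ξ).2.2 (etaR Nη T ξ) l =
        κ * slc τ p ((l.map evz).take (n + 1)) * etaR Nη T ξ (l.drop n) := by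
      have h1 : (l.take (n + 1)).map evz ≠ [] := by
        intro h
        have := congrArg List.length h
        rw [List.length_map, List.length_take, List.length_nil] at this
        omega
      unfold H977C.K3.rc
      rw [show l.length - e = n + 1 by omega, Nat.add_sub_cancel]
      change (if (l.take (n + 1)).map evz = [] then (0 : k) else κ * slc τ p _) * _ = _
      rw [if_neg h1, List.map_take]
    have ha : (topV τ r p e N Nη T ξ).2.1 (l.map evz) = κ *
        (slc τ p ((l.map evz).take (n + 1)) * eta Nη ξ (((l.drop n).map evz).map (segP r p))) := by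
      change κ * (slc τ p ((l.map evz).take (n + 1)) *
        eta Nη ξ (((l.map evz).drop n).map (segP r p))) = _
      rw [show (l.map evz).drop n = (l.drop n).map evz from List.map_drop.symm]
    rw [H977C.K3.D_f, hrc, ha]
    change dl (VV n τ.f (eta Nη ξ) r p N T) l - _ - _ = 0
    rw [hdV, hTh]
    by_cases h0 : slc τ p ((l.map evz).take (n + 1)) = 0
    · rw [h0]
      ring
    · have hnear := near_of_slc hs le_rfl (ys := l.map evz) (by
        intro h
        have := congrArg List.length h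
        rw [List.length_map, List.length_nil] at this
        omega) (fun y hy y' hy' => by
          obtain ⟨w, hw, rfl⟩ := List.mem_map.1 hy
          obtain ⟨w', hw', rfl⟩ := List.mem_map.1 hy'
          exact (BoundedContinuousFunction.dist_coe_le_dist 0).trans_lt (hsm.2 w hw w' hw')) h0
      rw [cut_split Nη T hξ hU hr hrρ (q := q) (l := l.drop n) (by
        intro h
        have := congrArg List.length h
        rw [List.length_drop, List.length_nil] at this
        omega) fun w hw => ⟨hsm.1 w (List.mem_of_mem_drop hw),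
          hnear _ (List.mem_map_of_mem (List.mem_of_mem_drop hw))⟩]
      ring
  · rw [H977C.K3.D_a]
    have h1 : ys.take (n + 1) ≠ [] := by
      intro h
      have := congrArg List.length h
      rw [List.length_take, List.length_nil] at this
      omega
    have hrc : H977C.K3.rc (e + 1) id (topV τ r p e N Nη T ξ).2.2 (fun l => (-1) ^ e * ξ l) ys =
        κ * slc τ p (ys.take (n + 1)) * ((-1) ^ e * ξ (ys.drop n)) := by
      unfold H977C.K3.rc
      rw [show ys.length - (e + 1) = n + 1 by omega, Nat.add_sub_cancel, List.map_id]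
      change (if ys.take (n + 1) = [] then (0 : k) else κ * slc τ p _) * _ = _
      rw [if_neg h1]
    have hda : dl (topV τ r p e N Nη T ξ).2.1 ys = κ * ((-1) ^ n * (slc τ p (ys.take (n + 1)) *
        dl (fun ys => eta Nη ξ (ys.map (segP r p))) (ys.drop n))) := by
      have e1 : dl (topV τ r p e N Nη T ξ).2.1 ys = κ * dl (N929.cup n (slc τ p)
        (fun ys => eta Nη ξ (ys.map (segP r p)))) ys := N929.dl_smul_fun _ _ _
      rw [e1, N929.dl_cup n _ _ _ (by omega), slc_dl hs le_rfl (by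
        rw [List.length_take]; omega) fun y hy y' hy' => hsm.2 y (List.mem_of_mem_take hy) y'
          (List.mem_of_mem_take hy'), zero_mul, zero_add]
    rw [hrc, hda]
    by_cases h0 : slc τ p (ys.take (n + 1)) = 0
    · rw [h0]
      ring
    · have hnear := near_of_slc hs le_rfl (ys := ys) (by
        rintro rfl
        simp at hl) hsm.2 h0
      rw [dl_gam Nη hξ hc (by linarith) hNη hU hr hrρ hs (by rw [List.length_drop]; omega)
        (fun y hy => hnear y (List.mem_of_mem_drop hy)) fun y hy y' hy' =>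
          hsm.2 y (List.mem_of_mem_drop hy) y' (List.mem_of_mem_drop hy'),
        show ys.length - e = n + 2 by omega]
      ring
  · rw [H977C.K3.D_c]
    have e1 : dl (topV τ r p e N Nη T ξ).2.2 ys = κ * dl (slc τ p) ys := by
      rw [← N929.dl_smul_fun]
      refine N929.dl_congr fun l' h1 _ => ?_
      change (if l' = [] then (0 : k) else κ * slc τ p l') = _
      rw [if_neg]
      rintro rfl
      simp at h1
      omega
    rw [e1, slc_dl hs le_rfl (by omega) hsm.2, mul_zero, neg_zero]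

/-- **The primitive is exact on the fibres.** -/
theorem topV_fib {g : List (ℝ →ᵇ M) → k} {m L : ℕ} {ε : ℝ} (hn : 2 ≤ n) (hU : LS.UniqSeg M ρ₀)
    (hr : 0 < r) (hrρ : r < ρ₀) (hs : Scl τ r p ε η₀) (hcoc : ∀ T, Coc (P q p T) ε e g)
    (hN : 1 / ((N : ℝ) + 1) < η₀) (hqp : ρ₁ ≤ dist q p) (hL : 0 < L) {x : M}
    (hm : (P x q (m : ℝ)).Nonempty)
    (hW : ExL (P q q ((L + m : ℕ) : ℝ)) (n + e - 1) (stp n τ.f r (1 / ((N : ℝ) + 1)) p g)) :
    ExL (P x q (L : ℝ)) (n + e - 1) (VV n τ.f g r p N (L + m + m)) := by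
  set V := VV n τ.f g r p N (L + m + m) with hV
  have hη₀ : 0 < η₀ := hs.pos
  have hm0 : (0 : ℝ) ≤ m := Nat.cast_nonneg m
  have hL0 : (0 : ℝ) < L := by exact_mod_cast hL
  have hdV : ∀ l : List (ℝ →ᵇ M), l.length = n + e + 1 →
      Fine (PF q ((L + m + m : ℕ) : ℝ)) η₀ l →
      dl V l = (-1) ^ (n + e + 1) * H140.Th n τ.f g r p (L + m + m) l :=
    H923C.v1 k M n e N (L + m + m) ρ₀ ρ₁ r ε η₀ p q τ g hU hr hrρ (by omega) hs hcoc hN hqp
  obtain ⟨γ, hγ⟩ := hm
  have hTk := tr_pt hm0 hγ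
  have hp₀ : (ptCell x).ψ Fin.elim0 ∈ ({x} : Set M) := rfl
  have key : ExL (ovr evz (fun t => PF q t) {x} (L : ℝ)) (n + e - 1) V := by
    refine stepA (ptCell x) isClosed_singleton rfl (a := q) (s := ((L + m : ℕ) : ℝ))
      (t := ((L + m + m : ℕ) : ℝ)) hTk hL0 (by push_cast; linarith) (by push_cast; linarith)
      ?_ ?_
    · refine ⟨η₀, hη₀, fun l hl hsm => ?_⟩
      rw [hdV l (by omega) ⟨fun w hw => (hsm.1 w hw).1, hsm.2⟩, H140.Th, N929.intg, N929.cup]
      have h0 : τ.f (((l.map fun w => (rv ((L + m + m : ℕ) : ℝ) w,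
          ((L + m + m : ℕ) : ℝ))).take (n + 1)).map (N929.evp p)) = 0 := by
        refine Nrm_const τ.nrm (a := (x, p)) (by
          rw [List.length_map, List.length_take, List.length_map]; omega) fun y hy => ?_
        obtain ⟨z, hz, rfl⟩ := List.mem_map.1 hy
        obtain ⟨w, hw, rfl⟩ := List.mem_map.1 (List.mem_of_mem_take hz)
        change (rv ((L + m + m : ℕ) : ℝ) w ((L + m + m : ℕ) : ℝ), p) = (x, p)
        rw [rv_apply, sub_self]
        exact congrArg (fun y => (y, p)) (hsm.1 w hw).2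
      rw [h0, zero_mul, mul_zero]
    · obtain ⟨s, hs0, ε', hε', hW⟩ := exL_rv hW
      refine ⟨s, hs0, ε', hε', fun l hl hsm => ?_⟩
      rw [← hW l hl hsm]
      refine W539.v3 k M n N (L + m) m ρ₁ r q p q τ g hn hqp
        (fun σ => γ (m - (m - σ)))
        (fun z => lback (fun _ u => γ u) m ((ptCell x).ψ Fin.elim0, z)) l (by omega)
        fun w hw => ⟨hsm.1 w hw, ?_, ?_⟩
      · intro σ hσ
        change lback (fun _ u => γ u) m ((ptCell x).ψ Fin.elim0, w) σ = _
        rw [lback_applyB (p := ((ptCell x).ψ Fin.elim0, w)) hTk hp₀ (hsm.1 w hw), lj_left hσ]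
      · intro σ hσ
        change lback (fun _ u => γ u) m ((ptCell x).ψ Fin.elim0, w) σ = _
        rw [lback_applyB (p := ((ptCell x).ψ Fin.elim0, w)) hTk hp₀ (hsm.1 w hw)]
        rcases hσ.eq_or_lt with rfl | hσ
        · rw [lj_left le_rfl, sub_self, eq_left (hsm.1 w hw) le_rfl]
          exact hTk.right _ hp₀ _ (by linarith)
        · rw [lj, if_neg (by linarith)]
  refine key.mono fun w hw => ⟨H456.P_subset_PF hw, eq_left hw le_rfl⟩

end

end Vale.Agent.P216.H140D
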