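import Vale.Agent.P216.H140.W1
import Vale.Agent.P216.H140D.Glue
import Vale.Agent.P216.H923C.V1
import Vale.Agent.P216.H539.V3
import Vale.Agent.P216.E2L.Out

/-!
# P216-D, block D3-F: `W_1 ≠ 0` over a general manifold

`w1_core`: `K` = a closed set away from the crossing point `p`. If the primitive `V` of
`τ(w 0, p) ∪ g` is exact on the paths which start in `K` as soon as it is exact on the fibres over
the points of `K` (Leray zigzag), then `∫ τ(w σ, p) ∪ g` is not exact on the loops at `q`, else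
`τ(., p)` would be exact.
-/

set_option linter.all false

open Set Finsupp BoundedContinuousFunction

namespace Vale.Agent.P216.H140D

open Vale.Agent.P216.AS Vale.Agent.P216.H901 Vale.Agent.P216.H83 Vale.Agent.P216.Sl
open Vale.Agent.P216.H456 Vale.Agent.P216.H456C Vale.Agent.P216.MV337 Vale.Agent.P216.H133C
open Vale.Agent.P216.PS Vale.Agent.P216.H140
open Vale.Agent.P216.N929 (Coc Fine Tau Scl Cy stp one1)
open Vale.Agent.P216.H754B (rv rv_apply rv_mem_P dist_rv_le lip_rv)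

variable {M : Type} [MetricSpace M] [CompactSpace M] {k : Type} [Field k]

/-- The slant over a point (`e = 0`): the section `x ↦` (track from `x` to `p`) `· u₀`. -/
theorem stepD0 {n T t'' c : ℕ} (hn : 1 ≤ n) {ρ₁ r η₀ : ℝ} (hη₀ : 0 < η₀) {p q : M}
    (τ : Tau k M n ρ₁) {V s : List (ℝ →ᵇ M) → k} {κ : k} (hκ : κ ≠ 0)
    {D S : Set M} (hD : IsClosed D) (hSD : S ⊆ D) {Tk : M → ℝ → M} (hT : Tr D p c Tk)
    (hV : ∀ l : List (ℝ →ᵇ M), l.length = n + 0 + 1 → Fine (PF q ((t'' : ℝ) + c)) η₀ l →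
      dl V l = κ * Th n τ.f (one1 k _) r p T l)
    (hs : ∃ ε > 0, ∀ l : List (ℝ →ᵇ M), l.length = n + 0 →
      SmL (ovr evz (fun t => PF q t) S ((t'' : ℝ) + c)) ε l → V l = dl s l)
    (hu : (P p q (t'' : ℝ)).Nonempty) :
    ExR D S n fun l => τ.f (l.map fun x => (x, p)) := by
  obtain ⟨ε, hε, hs⟩ := hs
  obtain ⟨u, hu⟩ := hu
  have ht0 : (0 : ℝ) ≤ t'' := by positivity
  have hcomp : IsCompact (D ×ˢ P p q (t'' : ℝ)) := hD.isCompact.prod (isCompact_P _ _ _)
  have huc := hcomp.uniformContinuousOn_of_continuous (continuousOn_lbackB (b := q) hT ht0)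
  rw [Metric.uniformContinuousOn_iff] at huc
  obtain ⟨δ, hδ, huc⟩ := huc (min ε η₀) (lt_min hε hη₀)
  let G : M → ℝ →ᵇ M := fun x => lback Tk c (x, u)
  have hmem : ∀ {X : Set M}, X ⊆ D → ∀ {l : List M}, (∀ x ∈ l, x ∈ X) → ∀ w ∈ l.map G,
      w ∈ ovr evz (fun t => PF q t) X ((t'' : ℝ) + c) := by
    intro X hX l hl w hw
    obtain ⟨x, hx, rfl⟩ := List.mem_map.1 hw
    refine ⟨(lback_memDB (p := (x, u)) hT ht0 (hX (hl x hx)) hu).1, ?_⟩
    change lback Tk c (x, u) 0 ∈ X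
    rw [lback_zeroB (p := (x, u)) hT ht0 (hX (hl x hx)) hu]
    exact hl x hx
  have hfine : ∀ {l : List M}, SmL D δ l → ∀ w ∈ l.map G, ∀ w' ∈ l.map G,
      dist w w' < min ε η₀ := by
    intro l hl w hw w' hw'
    obtain ⟨x, hx, rfl⟩ := List.mem_map.1 hw
    obtain ⟨y, hy, rfl⟩ := List.mem_map.1 hw'
    refine huc (x, u) ⟨hl.1 _ hx, hu⟩ (y, u) ⟨hl.1 _ hy, hu⟩ ?_
    rw [Prod.dist_eq, dist_self]
    exact max_lt (hl.2 _ hx _ hy) hδ
  refine ⟨fun l => κ⁻¹ * (V (l.map G) - dl s (l.map G)), fun h0 => absurd h0 (by omega),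
    ⟨δ, hδ, fun l hl hsm => ?_⟩, δ, hδ, fun l hl hsm => ?_⟩
  · change κ⁻¹ * (V (l.map G) - dl s (l.map G)) = 0
    rw [hs _ (by rw [List.length_map]; omega) ⟨hmem hSD hsm.1, fun w hw w' hw' =>
      (hfine (hsm.mono hSD le_rfl) w hw w' hw').trans_le (min_le_left _ _)⟩, sub_self, mul_zero]
  · have e0 : dl (fun l : List M => κ⁻¹ * (V (l.map G) - dl s (l.map G))) l =
        κ⁻¹ * dl V (l.map G) := by
      have h3 : (fun l : List M => V (l.map G) - dl s (l.map G)) =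
          fun l => V (l.map G) + (-1) * dl s (l.map G) := by
        funext L
        ring
      rw [N929.dl_smul_fun, h3, N929.dl_add_fun, N929.dl_smul_fun, N929.dl_map V G,
        N929.dl_map (dl s) G, N929.dl_dl, mul_zero, add_zero]
    have hmD := hmem subset_rfl hsm.1
    rw [e0, hV (l.map G) (by rw [List.length_map]; omega)
      ⟨fun w hw => (hmD w hw).1, fun w hw w' hw' =>
        (hfine hsm w hw w' hw').trans_le (min_le_right _ _)⟩, ← mul_assoc,
      inv_mul_cancel₀ hκ, one_mul, H140.Th, N929.intg, N929.cup, one1,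
      if_pos (by simp only [List.length_map, List.length_drop]; omega), mul_one,
      List.take_of_length_le (by simp only [List.length_map]; omega), List.map_map,
      List.map_map]
    refine congrArg τ.f (List.map_congr_left fun x hx => ?_)
    change (x, p) = (rv T (lback Tk c (x, u)) T, p)
    rw [rv_apply, sub_self, lback_zeroB (p := (x, u)) hT ht0 (hsm.1 _ hx) hu]

/-- A point is a cell of dimension `0`. -/
noncomputable def ptCell (x : M) : Cell M 0 {x} (∅ : Set M) where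
  φ _ := Fin.elim0
  ψ _ := x
  K y := y.1
  φ_cont := continuousOn_const
  φ_mem _ _ i := i.elim0
  φ_bd y hy := hy.elim
  ψ_cont := continuousOn_const
  ψ_mem _ _ := rfl
  ψ_bd _ _ h := h.elim fun i => i.elim0
  φψ y _ := funext fun i => i.elim0
  K_cont := continuousOn_fst
  K_mem y hy _ _ := hy
  K_bd y hy := hy.elim
  K_zero _ _ := rfl
  K_one y hy := hy

/-- A path from `x` to `a` is a track of the point `x`. -/
theorem tr_pt {x a : M} {m : ℝ} (hm : 0 ≤ m) {w : ℝ →ᵇ M} (hw : w ∈ P x a m) :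
    Tr ({x} : Set M) a m fun _ u => w u where
  nonneg := hm
  lip _ _ := hw.1
  left y hy u hu := by rw [eq_left hw hu]; exact hy.symm
  right _ _ u hu := eq_right hw hu
  cont := (w.continuous.comp continuous_snd).continuousOn

/-- **`W_1 ≠ 0`, the core.** -/
theorem w1_core {n e N m Lv : ℕ} {ρ₀ ρ₁ r ε η₀ t δK : ℝ} {p q : M} (hn : 2 ≤ n)
    (hU : LS.UniqSeg M ρ₀) (hr : 0 < r) (hrρ : r < ρ₀) {τ : Tau k M n ρ₁}
    {g : List (ℝ →ᵇ M) → k} (hs : Scl τ r p ε η₀) (hcoc : ∀ T, Coc (P q p T) ε e g)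
    (hN : 1 / ((N : ℝ) + 1) < η₀) (hqp : ρ₁ ≤ dist q p) {K D : Set M} (hδK : 0 < δK)
    (hK : ∀ x ∈ K, ρ₁ + δK ≤ dist x p) (hm : ∀ x, (P x q (m : ℝ)).Nonempty)
    (hLv : 0 < (Lv : ℝ)) (htL : t ≤ Lv)
    (hLer : ∀ z : List (ℝ →ᵇ M) → k, E2L.CocA evz K (PF q (Lv : ℝ)) (n + e - 1) z →
      (∀ x ∈ K, ExL (ovr evz (fun t => PF q t) {x} (Lv : ℝ)) (n + e - 1) z) →
        ExL (PF q t ∩ evz ⁻¹' K) (n + e - 1) z)
    (hS : ∀ (V s : List (ℝ →ᵇ M) → k) (T : ℕ),
      (∀ l : List (ℝ →ᵇ M), l.length = n + e + 1 → Fine (PF q t) η₀ l →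
        dl V l = (-1) ^ (n + e + 1) * H140.Th n τ.f g r p T l) → t ≤ T →
      (∃ ε > 0, ∀ l : List (ℝ →ᵇ M), l.length = n + e →
        SmL (ovr evz (fun t => PF q t) (D ∩ K) t) ε l → V l = dl s l) →
      ExR D (D ∩ K) n fun l => τ.f (l.map fun x => (x, p)))
    (hD : ∃ δ > 0, ∀ x y, dist x y < δ → x ∉ D → y ∈ K)
    (hτ : ¬ ExL (univ : Set M) n fun l => τ.f (l.map fun x => (x, p))) :
    ¬ ExL (P q q ((Lv + m : ℕ) : ℝ)) (n + e - 1) (stp n τ.f r (1 / ((N : ℝ) + 1)) p g) := by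
  intro hW
  set V := VV n τ.f g r p N (Lv + m + m) with hV
  have hη₀ : 0 < η₀ := hs.pos
  have hm0 : (0 : ℝ) ≤ m := Nat.cast_nonneg m
  -- `dl V = ± Θ`
  have hdV : ∀ l : List (ℝ →ᵇ M), l.length = n + e + 1 →
      Fine (PF q ((Lv + m + m : ℕ) : ℝ)) η₀ l →
      dl V l = (-1) ^ (n + e + 1) * H140.Th n τ.f g r p (Lv + m + m) l :=
    H923C.v1 k M n e N (Lv + m + m) ρ₀ ρ₁ r ε η₀ p q τ g hU hr hrρ (by omega) hs hcoc hN hqp
  have hlevel : ((Lv : ℝ)) ≤ ((Lv + m + m : ℕ) : ℝ) := by push_cast; linarith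
  have hzero : ∀ l : List (ℝ →ᵇ M), l.length = n + e + 1 →
      (∀ w ∈ l, ρ₁ ≤ dist (w 0) p) → Fine (PF q ((Lv + m + m : ℕ) : ℝ)) η₀ l → dl V l = 0 := by
    intro l hl hw hf
    rw [hdV l hl hf, H140.Th, N929.intg_zero τ (by
      intro h0
      rw [List.map_eq_nil_iff] at h0
      subst h0
      simp at hl) fun x hx => ?_, mul_zero]
    obtain ⟨w, hw', rfl⟩ := List.mem_map.1 hx
    change ρ₁ ≤ dist (rv _ w _) p
    rw [rv_apply, sub_self]
    exact hw w hw'
  have hKp : ∀ x ∈ K, ρ₁ ≤ dist x p := fun x hx => by linarith [hK x hx]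
  -- `V` is closed near `K`
  have hVc : E2L.CocA evz K (PF q (Lv : ℝ)) (n + e - 1) V := by
    refine ⟨min δK η₀, lt_min hδK hη₀, fun x hx ws h1 h2 h3 => hzero ws (by omega)
      (fun w hw => ?_) ⟨fun w hw => PF_mono hlevel (h2.1 w hw), fun w hw w' hw' =>
        (h2.2 w hw w' hw').trans_le (min_le_right _ _)⟩⟩
    have h4 : dist x (w 0) < δK := (h3 w hw).trans_le (min_le_left _ _)
    have h5 := dist_triangle x (w 0) p
    linarith [hK x hx]
  -- exactness on the fibres over the points of `K`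
  have hfib : ∀ x ∈ K, ExL (ovr evz (fun t => PF q t) {x} (Lv : ℝ)) (n + e - 1) V := by
    intro x hx
    obtain ⟨γ, hγ⟩ := hm x
    have hTk := tr_pt hm0 hγ
    have hp₀ : (ptCell x).ψ Fin.elim0 ∈ ({x} : Set M) := rfl
    refine stepA (ptCell x) isClosed_singleton rfl (a := q) (s := ((Lv + m : ℕ) : ℝ))
      (t := ((Lv + m + m : ℕ) : ℝ)) hTk hLv (by push_cast; linarith) (by push_cast; linarith)
      ?_ ?_
    · refine ⟨η₀, hη₀, fun l hl hsm => hzero l (by omega) (fun w hw => ?_)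
        ⟨fun w hw => (hsm.1 w hw).1, hsm.2⟩⟩
      have : w 0 = x := (hsm.1 w hw).2
      rw [this]
      exact hKp x hx
    · obtain ⟨s, hs0, ε', hε', hW⟩ := exL_rv hW
      refine ⟨s, hs0, ε', hε', fun l hl hsm => ?_⟩
      rw [← hW l hl hsm]
      refine W539.v3 k M n N (Lv + m) m ρ₁ r q p q τ g hn hqp
        (fun σ => γ (m - (m - σ)))
        (fun z => lback (fun _ u => γ u) m ((ptCell x).ψ Fin.elim0, z)) l (by omega)
        fun w hw => ⟨hsm.1 w hw, ?_, ?_⟩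
      · intro σ hσ
        change lback (fun _ u => γ u) m ((ptCell x).ψ Fin.elim0, w) σ = _
        rw [lback_applyB (p := ((ptCell x).ψ Fin.elim0, w)) hTk hp₀ (hsm.1 w hw), lj_left hσ]
      · intro σ hσ
        change lback (fun _ u => γ u) m ((ptCell x).ψ Fin.elim0, w) σ = _
        rw [lback_applyB (p := ((ptCell x).ψ Fin.elim0, w)) hTk hp₀ (hsm.1 w hw)]
        rcases hσ.eq_or_lt with rfl | hσ
        · rw [lj_left le_rfl, sub_self, eq_left (hsm.1 w hw) le_rfl]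
          exact hTk.right _ hp₀ _ (by linarith)
        · rw [lj, if_neg (by linarith)]
  -- exactness over `K`
  obtain ⟨s, -, ε', hε', hVs⟩ := hLer V hVc hfib
  -- the slant
  have hfin := hS V s (Lv + m + m) (fun l hl hf => hdV l hl (hf.mono
    (PF_mono (htL.trans hlevel)) le_rfl)) (htL.trans hlevel)
    ⟨ε', hε', fun l hl hsm => hVs l (by omega) (hsm.mono (fun w hw => ⟨hw.1, hw.2.2⟩) le_rfl)⟩
  -- the glueing
  refine hτ (exL_glue hfin ⟨1, one_pos, fun l hl hsm => ?_⟩ hD)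
  obtain ⟨x, l, rfl⟩ := List.exists_cons_of_length_pos (l := l) (by omega)
  exact τ.supp _ ⟨(x, p), by simp, hKp x (hsm.1 x List.mem_cons_self)⟩

end Vale.Agent.P216.H140D
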